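import Mathlib

namespace Vale.Agent.P249

open Finset

theorem exp_mul_le_affine (c z : ℝ) (hz0 : 0 ≤ z) (hz1 : z ≤ 1) :
    Real.exp (c * z) ≤ 1 + (Real.exp c - 1) * z := by
  have h := convexOn_exp.2 (Set.mem_univ (0 : ℝ)) (Set.mem_univ c) (sub_nonneg.mpr hz1) hz0
    (by ring)
  simp only [smul_eq_mul, mul_zero, zero_add, Real.exp_zero, mul_one] at h
  calc Real.exp (c * z) = Real.exp (z * c) := by rw [mul_comm]
    _ ≤ 1 - z + z * Real.exp c := h
    _ = 1 + (Real.exp c - 1) * z := by ring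

theorem mgf_le {K : Type*} [Fintype K] (q Z : K → ℝ) (hq : ∀ k, 0 ≤ q k) (hq1 : ∑ k, q k = 1)
    (hZ0 : ∀ k, 0 ≤ Z k) (hZ1 : ∀ k, Z k ≤ 1) (c : ℝ) :
    ∑ k, q k * Real.exp (c * Z k) ≤ Real.exp ((Real.exp c - 1) * ∑ k, q k * Z k) := by
  calc ∑ k, q k * Real.exp (c * Z k) ≤ ∑ k, q k * (1 + (Real.exp c - 1) * Z k) := by
        apply Finset.sum_le_sum
        intro k _
        exact mul_le_mul_of_nonneg_left (exp_mul_le_affine c (Z k) (hZ0 k) (hZ1 k)) (hq k)
    _ = (Real.exp c - 1) * ∑ k, q k * Z k + 1 := by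
        have h3 : ∑ k, q k * (1 + (Real.exp c - 1) * Z k) =
            (Real.exp c - 1) * ∑ k, q k * Z k + ∑ k, q k := by
          rw [Finset.mul_sum, ← Finset.sum_add_distrib]
          apply Finset.sum_congr rfl
          intro k _
          ring
        rw [h3, hq1]
    _ ≤ Real.exp ((Real.exp c - 1) * ∑ k, q k * Z k) := Real.add_one_le_exp _

theorem sum_prod_exp {K : Type*} [Fintype K] [DecidableEq K] (q Z : K → ℝ) (c : ℝ) (T : ℕ) :
    ∑ κ : Fin T → K, (∏ t, q (κ t)) * Real.exp (c * ∑ t, Z (κ t)) =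
      (∑ k, q k * Real.exp (c * Z k)) ^ T := by
  have h := Finset.prod_univ_sum (fun _ : Fin T => (Finset.univ : Finset K))
    (fun _ k => q k * Real.exp (c * Z k))
  rw [Finset.prod_const, Finset.card_univ, Fintype.card_fin, Fintype.piFinset_univ] at h
  rw [h]
  apply Finset.sum_congr rfl
  intro κ _
  rw [Finset.prod_mul_distrib, Finset.mul_sum, Real.exp_sum]

theorem sum_prod_eq_one {K : Type*} [Fintype K] [DecidableEq K] (q : K → ℝ)
    (hq1 : ∑ k, q k = 1) (T : ℕ) : ∑ κ : Fin T → K, (∏ t, q (κ t)) = 1 := by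
  have h := Finset.prod_univ_sum (fun _ : Fin T => (Finset.univ : Finset K)) (fun _ k => q k)
  rw [Finset.prod_const, Finset.card_univ, Fintype.card_fin, Fintype.piFinset_univ, hq1,
    one_pow] at h
  exact h.symm

theorem chernoff_union {K P : Type*} [Fintype K] [DecidableEq K] (q : K → ℝ)
    (hq : ∀ k, 0 ≤ q k) (hq1 : ∑ k, q k = 1) (Q : Finset P) (Z : P → K → ℝ)
    (hZ0 : ∀ e ∈ Q, ∀ k, 0 ≤ Z e k) (hZ1 : ∀ e ∈ Q, ∀ k, Z e k ≤ 1) (μ : ℝ)
    (hμ : ∀ e ∈ Q, ∑ k, q k * Z e k = μ) (hμ0 : 0 ≤ μ) (ε : ℝ) (hε0 : 0 < ε) (hε1 : ε < 1) (T : ℕ)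
    (hT : 2 * (Q.card : ℝ) * Real.exp (-(T * μ * ε ^ 2 / 4)) < 1) :
    ∃ κ : Fin T → K, (∀ t, 0 < q (κ t)) ∧ ∀ e ∈ Q,
      (1 - ε) * (T * μ) < ∑ t, Z e (κ t) ∧ ∑ t, Z e (κ t) < (1 + ε) * (T * μ) := by
  classical
  set lam : ℝ := ε / 2 with hlam
  have hlam0 : 0 < lam := by positivity
  set Φ : (Fin T → K) → ℝ := fun κ => ∑ e ∈ Q,
    (Real.exp (-(lam * (1 + ε) * (T * μ))) * Real.exp (lam * ∑ t, Z e (κ t)) +
      Real.exp (lam * (1 - ε) * (T * μ)) * Real.exp (-lam * ∑ t, Z e (κ t))) with hΦ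
  have hup : Real.exp lam - 1 - lam * (1 + ε) ≤ -(ε ^ 2 / 4) := by
    have h := Real.abs_exp_sub_one_sub_id_le (x := lam) (by rw [abs_of_pos hlam0]; linarith)
    have h2 := (abs_le.mp h).2
    have : lam ^ 2 - lam * ε = -(ε ^ 2 / 4) := by rw [hlam]; ring
    linarith
  have hlo : Real.exp (-lam) - 1 + lam * (1 - ε) ≤ -(ε ^ 2 / 4) := by
    have h := Real.abs_exp_sub_one_sub_id_le (x := -lam)
      (by rw [abs_neg, abs_of_pos hlam0]; linarith)
    have h2 := (abs_le.mp h).2
    have : (-lam) ^ 2 - lam * ε = -(ε ^ 2 / 4) := by rw [hlam]; ring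
    linarith
  have hTμ : 0 ≤ (T : ℝ) * μ := by positivity
  have hE : ∑ κ : Fin T → K, (∏ t, q (κ t)) * Φ κ ≤
      2 * (Q.card : ℝ) * Real.exp (-(T * μ * ε ^ 2 / 4)) := by
    have h1 : ∑ κ : Fin T → K, (∏ t, q (κ t)) * Φ κ = ∑ e ∈ Q,
        (Real.exp (-(lam * (1 + ε) * (T * μ))) * (∑ k, q k * Real.exp (lam * Z e k)) ^ T +
          Real.exp (lam * (1 - ε) * (T * μ)) * (∑ k, q k * Real.exp (-lam * Z e k)) ^ T) := by
      have h0 : ∀ κ : Fin T → K, (∏ t, q (κ t)) * Φ κ = ∑ e ∈ Q, (∏ t, q (κ t)) *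
          (Real.exp (-(lam * (1 + ε) * (T * μ))) * Real.exp (lam * ∑ t, Z e (κ t)) +
            Real.exp (lam * (1 - ε) * (T * μ)) * Real.exp (-lam * ∑ t, Z e (κ t))) := by
        intro κ
        rw [hΦ]
        exact Finset.mul_sum _ _ _
      rw [Finset.sum_congr rfl (fun κ _ => h0 κ), Finset.sum_comm]
      apply Finset.sum_congr rfl
      intro e _
      rw [← sum_prod_exp, ← sum_prod_exp, Finset.mul_sum, Finset.mul_sum,
        ← Finset.sum_add_distrib]
      apply Finset.sum_congr rfl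
      intro κ _
      ring
    rw [h1]
    have h2 : ∀ e ∈ Q,
        (Real.exp (-(lam * (1 + ε) * (T * μ))) * (∑ k, q k * Real.exp (lam * Z e k)) ^ T +
          Real.exp (lam * (1 - ε) * (T * μ)) * (∑ k, q k * Real.exp (-lam * Z e k)) ^ T) ≤
        2 * Real.exp (-(T * μ * ε ^ 2 / 4)) := by
      intro e he
      have hA : (∑ k, q k * Real.exp (lam * Z e k)) ^ T ≤
          Real.exp ((Real.exp lam - 1) * (T * μ)) := by
        have := mgf_le q (Z e) hq hq1 (hZ0 e he) (hZ1 e he) lam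
        rw [hμ e he] at this
        calc (∑ k, q k * Real.exp (lam * Z e k)) ^ T
            ≤ (Real.exp ((Real.exp lam - 1) * μ)) ^ T := by
              apply pow_le_pow_left₀ _ this
              exact Finset.sum_nonneg (fun k _ => mul_nonneg (hq k) (Real.exp_pos _).le)
          _ = Real.exp ((Real.exp lam - 1) * (T * μ)) := by
              rw [← Real.exp_nat_mul]; congr 1; ring
      have hB : (∑ k, q k * Real.exp (-lam * Z e k)) ^ T ≤
          Real.exp ((Real.exp (-lam) - 1) * (T * μ)) := by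
        have := mgf_le q (Z e) hq hq1 (hZ0 e he) (hZ1 e he) (-lam)
        rw [hμ e he] at this
        calc (∑ k, q k * Real.exp (-lam * Z e k)) ^ T
            ≤ (Real.exp ((Real.exp (-lam) - 1) * μ)) ^ T := by
              apply pow_le_pow_left₀ _ this
              exact Finset.sum_nonneg (fun k _ => mul_nonneg (hq k) (Real.exp_pos _).le)
          _ = Real.exp ((Real.exp (-lam) - 1) * (T * μ)) := by
              rw [← Real.exp_nat_mul]; congr 1; ring
      have hA' : Real.exp (-(lam * (1 + ε) * (T * μ))) *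
          (∑ k, q k * Real.exp (lam * Z e k)) ^ T ≤ Real.exp (-(T * μ * ε ^ 2 / 4)) := by
        calc _ ≤ Real.exp (-(lam * (1 + ε) * (T * μ))) *
              Real.exp ((Real.exp lam - 1) * (T * μ)) :=
              mul_le_mul_of_nonneg_left hA (Real.exp_pos _).le
          _ = Real.exp ((Real.exp lam - 1 - lam * (1 + ε)) * (T * μ)) := by
              rw [← Real.exp_add]; congr 1; ring
          _ ≤ Real.exp (-(T * μ * ε ^ 2 / 4)) := by
              apply Real.exp_le_exp.mpr
              have := mul_le_mul_of_nonneg_right hup hTμ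
              linarith
      have hB' : Real.exp (lam * (1 - ε) * (T * μ)) *
          (∑ k, q k * Real.exp (-lam * Z e k)) ^ T ≤ Real.exp (-(T * μ * ε ^ 2 / 4)) := by
        calc _ ≤ Real.exp (lam * (1 - ε) * (T * μ)) *
              Real.exp ((Real.exp (-lam) - 1) * (T * μ)) :=
              mul_le_mul_of_nonneg_left hB (Real.exp_pos _).le
          _ = Real.exp ((Real.exp (-lam) - 1 + lam * (1 - ε)) * (T * μ)) := by
              rw [← Real.exp_add]; congr 1; ring
          _ ≤ Real.exp (-(T * μ * ε ^ 2 / 4)) := by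
              apply Real.exp_le_exp.mpr
              have := mul_le_mul_of_nonneg_right hlo hTμ
              linarith
      linarith
    calc _ ≤ ∑ _e ∈ Q, 2 * Real.exp (-(T * μ * ε ^ 2 / 4)) := Finset.sum_le_sum h2
      _ = 2 * (Q.card : ℝ) * Real.exp (-(T * μ * ε ^ 2 / 4)) := by
          rw [Finset.sum_const, nsmul_eq_mul]; ring
  have hlt : ∑ κ : Fin T → K, (∏ t, q (κ t)) * Φ κ < ∑ κ : Fin T → K, (∏ t, q (κ t)) := by
    rw [sum_prod_eq_one q hq1 T]
    exact lt_of_le_of_lt hE hT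
  obtain ⟨κ, -, hκ⟩ := Finset.exists_lt_of_sum_lt hlt
  have hΦ0 : 0 ≤ Φ κ := by
    apply Finset.sum_nonneg
    intro e _
    positivity
  have hw0 : 0 ≤ ∏ t, q (κ t) := Finset.prod_nonneg (fun t _ => hq _)
  have hwpos : 0 < ∏ t, q (κ t) := by
    rcases hw0.lt_or_eq with h | h
    · exact h
    · rw [← h] at hκ
      simp at hκ
  have hΦ1 : Φ κ < 1 := by
    by_contra hcon
    push Not at hcon
    have := mul_le_mul_of_nonneg_left hcon hw0
    linarith
  refine ⟨κ, ?_, ?_⟩
  · intro t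
    rcases (hq (κ t)).lt_or_eq with h | h
    · exact h
    · exfalso
      have : ∏ t, q (κ t) = 0 := Finset.prod_eq_zero (Finset.mem_univ t) h.symm
      linarith
  · intro e he
    have hterm : (Real.exp (-(lam * (1 + ε) * (T * μ))) * Real.exp (lam * ∑ t, Z e (κ t)) +
      Real.exp (lam * (1 - ε) * (T * μ)) * Real.exp (-lam * ∑ t, Z e (κ t))) < 1 := by
      refine lt_of_le_of_lt ?_ hΦ1
      exact Finset.single_le_sum (f := fun e =>
        (Real.exp (-(lam * (1 + ε) * (T * μ))) * Real.exp (lam * ∑ t, Z e (κ t)) +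
        Real.exp (lam * (1 - ε) * (T * μ)) * Real.exp (-lam * ∑ t, Z e (κ t))))
        (fun e _ => by positivity) he
    have h1 : Real.exp (-(lam * (1 + ε) * (T * μ))) * Real.exp (lam * ∑ t, Z e (κ t)) < 1 := by
      have : 0 < Real.exp (lam * (1 - ε) * (T * μ)) * Real.exp (-lam * ∑ t, Z e (κ t)) := by
        positivity
      linarith
    have h2 : Real.exp (lam * (1 - ε) * (T * μ)) * Real.exp (-lam * ∑ t, Z e (κ t)) < 1 := by
      have : 0 < Real.exp (-(lam * (1 + ε) * (T * μ))) * Real.exp (lam * ∑ t, Z e (κ t)) := by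
        positivity
      linarith
    rw [← Real.exp_add, Real.exp_lt_one_iff] at h1 h2
    constructor
    · have : lam * ((1 - ε) * (T * μ) - ∑ t, Z e (κ t)) < 0 := by linarith
      have := (pos_iff_neg_of_mul_neg this).mp hlam0
      linarith
    · have : lam * (∑ t, Z e (κ t) - (1 + ε) * (T * μ)) < 0 := by linarith
      have := (pos_iff_neg_of_mul_neg this).mp hlam0
      linarith

theorem exists_sample {K P : Type*} [Fintype K] [DecidableEq K] [Fintype P]
    (a : K → P → ℝ) (ha : ∀ k e, 0 ≤ a k e)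
    (s : K → ℝ) (hs : ∀ k, 0 ≤ s k) (hsa : ∀ k e, a k e ≤ s k * ∑ k', a k' e)
    (hS : 0 < ∑ k, s k) (ε : ℝ) (hε0 : 0 < ε) (hε1 : ε < 1) (T : ℕ) (hT0 : 0 < T)
    (hT : 2 * (Fintype.card P : ℝ) * Real.exp (-(T * ε ^ 2 / (4 * ∑ k, s k))) < 1) :
    ∃ κ : Fin T → K, (∀ t, 0 < s (κ t)) ∧ ∀ e,
      (1 - ε) * ∑ k, a k e ≤ ∑ t, ((∑ k, s k) / (T * s (κ t))) * a (κ t) e ∧
      ∑ t, ((∑ k, s k) / (T * s (κ t))) * a (κ t) e ≤ (1 + ε) * ∑ k, a k e := by
  classical
  set S := ∑ k, s k with hSdef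
  set A : P → ℝ := fun e => ∑ k, a k e with hA
  have hA0 : ∀ e, 0 ≤ A e := fun e => Finset.sum_nonneg (fun k _ => ha k e)
  have hTpos : (0 : ℝ) < T := by exact_mod_cast hT0
  set Q : Finset P := Finset.univ.filter (fun e => 0 < A e) with hQ
  have hmean : ∀ e ∈ Q, ∑ k, (s k / S) * (a k e / (s k * A e)) = 1 / S := by
    intro e he
    have hAe : 0 < A e := (Finset.mem_filter.mp he).2
    have hterm : ∀ k, (s k / S) * (a k e / (s k * A e)) = a k e / (S * A e) := by
      intro k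
      rcases (hs k).lt_or_eq with h | h
      · field_simp
      · have h0 : a k e = 0 := by
          have := hsa k e
          rw [← h, zero_mul] at this
          exact le_antisymm this (ha k e)
        rw [h0]; simp
    rw [Finset.sum_congr rfl (fun k _ => hterm k), ← Finset.sum_div]
    show A e / (S * A e) = 1 / S
    field_simp
  have hcard : (Q.card : ℝ) ≤ Fintype.card P := by
    exact_mod_cast Finset.card_le_univ Q
  obtain ⟨κ, hκpos, hκ⟩ := chernoff_union (fun k => s k / S) (fun k => div_nonneg (hs k) hS.le)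
    (by rw [← Finset.sum_div]; exact div_self hS.ne') Q (fun e k => a k e / (s k * A e))
    (fun e _ k => div_nonneg (ha k e) (mul_nonneg (hs k) (hA0 e)))
    (fun e _ k => div_le_one_of_le₀ (hsa k e) (mul_nonneg (hs k) (hA0 e)))
    (1 / S) hmean (by positivity) ε hε0 hε1 T (by
      have h1 : (T : ℝ) * (1 / S) * ε ^ 2 / 4 = T * ε ^ 2 / (4 * S) := by field_simp
      rw [h1]
      refine lt_of_le_of_lt ?_ hT
      apply mul_le_mul_of_nonneg_right _ (Real.exp_pos _).le
      linarith)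
  have hspos : ∀ t, 0 < s (κ t) := by
    intro t
    have := hκpos t
    by_contra hcon
    have h0 : s (κ t) = 0 := le_antisymm (not_lt.mp hcon) (hs _)
    rw [h0] at this
    simp at this
  refine ⟨κ, hspos, ?_⟩
  intro e
  by_cases he : 0 < A e
  · have heQ : e ∈ Q := Finset.mem_filter.mpr ⟨Finset.mem_univ e, he⟩
    obtain ⟨h1, h2⟩ := hκ e heQ
    have hsum : ∑ t, (S / (T * s (κ t))) * a (κ t) e =
        (S / T * A e) * ∑ t, a (κ t) e / (s (κ t) * A e) := by
      rw [Finset.mul_sum]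
      apply Finset.sum_congr rfl
      intro t _
      have := hspos t
      field_simp
    have hc : 0 < S / T * A e := by positivity
    rw [hsum]
    constructor
    · have := mul_le_mul_of_nonneg_left h1.le hc.le
      have h3 : S / T * A e * ((1 - ε) * (T * (1 / S))) = (1 - ε) * A e := by field_simp
      rw [h3] at this
      exact this
    · have := mul_le_mul_of_nonneg_left h2.le hc.le
      have h3 : S / T * A e * ((1 + ε) * (T * (1 / S))) = (1 + ε) * A e := by field_simp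
      rw [h3] at this
      exact this
  · have hAe : A e = 0 := le_antisymm (not_lt.mp he) (hA0 e)
    have hz : ∀ k, a k e = 0 := by
      intro k
      have := (Finset.sum_eq_zero_iff_of_nonneg (fun k _ => ha k e)).mp hAe k (Finset.mem_univ k)
      exact this
    have h1 : ∑ k, a k e = 0 := hAe
    simp [hz]

end Vale.Agent.P249
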