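import Mathlib

namespace Vale.Agent.P249

open Finset

variable {V : Type*}

def ClosedNB (adj : V → V → Prop) (l : ℕ) (x : ℕ → V) : Prop :=
  (∀ i, i < l → adj (x i) (x (i + 1))) ∧ (∀ i, i + 2 ≤ l → x i ≠ x (i + 2)) ∧ x l = x 0

def NoShortNB (adj : V → V → Prop) (L : ℕ) : Prop :=
  ∀ l x, 1 ≤ l → l ≤ L → ¬ ClosedNB adj l x

def Reach (adj : V → V → Prop) (j : ℕ) (a b : V) : Prop :=
  ∃ (l : ℕ) (x : ℕ → V), l ≤ j ∧ x 0 = a ∧ x l = b ∧ ∀ i, i < l → adj (x i) (x (i + 1))

theorem Reach.symm {adj : V → V → Prop} (hsymm : ∀ u v, adj u v → adj v u) {j : ℕ} {a b : V}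
    (h : Reach adj j a b) : Reach adj j b a := by
  obtain ⟨l, x, hl, h0, h1, hs⟩ := h
  refine ⟨l, fun t => x (l - t), hl, ?_, ?_, ?_⟩
  · simpa using h1
  · simpa using h0
  · intro i hi
    have h2 : l - i = (l - (i + 1)) + 1 := by omega
    have := hs (l - (i + 1)) (by omega)
    simp only
    rw [h2]
    exact hsymm _ _ this

theorem NoShortNB.add_edge {adj : V → V → Prop} (hsymm : ∀ u v, adj u v → adj v u) {L : ℕ}
    {a b : V} (h : NoShortNB adj L) (hr : ¬ Reach adj (L - 1) a b) :
    NoShortNB (fun u v => adj u v ∨ (u = a ∧ v = b) ∨ (u = b ∧ v = a)) L := by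
  classical
  intro l x hl1 hlL hx
  obtain ⟨hadj, hnb, hcl⟩ := hx
  have hr' : ¬ Reach adj (L - 1) b a := fun h' => hr (h'.symm hsymm)
  by_cases hs : ∃ i, i < l ∧ ((x i = a ∧ x (i + 1) = b) ∨ (x i = b ∧ x (i + 1) = a))
  · have hi := Nat.find_spec hs
    have himin := fun m => @Nat.find_min _ _ hs m
    set i := Nat.find hs with hidef
    have hadj' : ∀ m, m < l → ¬ ((x m = a ∧ x (m + 1) = b) ∨ (x m = b ∧ x (m + 1) = a)) →
        adj (x m) (x (m + 1)) := by
      intro m hm hns
      rcases hadj m hm with h1 | h1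
      · exact h1
      · exact absurd h1 hns
    by_cases hs2 : ∃ j, (i < j ∧ j < l) ∧ ((x j = a ∧ x (j + 1) = b) ∨ (x j = b ∧ x (j + 1) = a))
    · have hj := Nat.find_spec hs2
      have hjmin := fun m => @Nat.find_min _ _ hs2 m
      set j := Nat.find hs2 with hjdef
      have hseg : ∀ t, t < j - i - 1 → adj (x (i + 1 + t)) (x (i + 1 + t + 1)) := by
        intro t ht
        apply hadj' _ (by omega)
        intro hsp
        exact hjmin (i + 1 + t) (by omega) ⟨⟨by omega, by omega⟩, hsp⟩
      have hend : i + 1 + (j - i - 1) = j := by omega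
      by_cases heq : x (i + 1) = x j
      · have hpos : 1 ≤ j - i - 1 := by
          by_contra hlt
          have hji : j = i + 1 := by omega
          have h2 := hnb i (by omega)
          rw [hji] at hj
          rcases hi.2 with ⟨h3, h4⟩ | ⟨h3, h4⟩ <;> rcases hj.2 with ⟨h5, h6⟩ | ⟨h5, h6⟩
          · exact h2 (by rw [h3, h6]; exact h5.symm.trans h4)
          · exact h2 (by rw [h3, h6])
          · exact h2 (by rw [h3, h6])
          · exact h2 (by rw [h3, h6]; exact h5.symm.trans h4)
        refine h (j - i - 1) (fun t => x (i + 1 + t)) hpos (by omega) ⟨?_, ?_, ?_⟩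
        · intro t ht
          exact hseg t ht
        · intro t ht
          have := hnb (i + 1 + t) (by omega)
          simpa [add_assoc] using this
        · simp only [hend, add_zero]
          exact heq.symm
      · have hw : Reach adj (L - 1) (x (i + 1)) (x j) :=
          ⟨j - i - 1, fun t => x (i + 1 + t), by omega, by simp, by simp only [hend], hseg⟩
        rcases hi.2 with ⟨h3, h4⟩ | ⟨h3, h4⟩ <;> rcases hj.2 with ⟨h5, h6⟩ | ⟨h5, h6⟩
        · rw [h4, h5] at hw; exact hr' hw
        · exact heq (by rw [h4, h5])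
        · exact heq (by rw [h4, h5])
        · rw [h4, h5] at hw; exact hr hw
    · have hns : ∀ m, m < l → m ≠ i →
          ¬ ((x m = a ∧ x (m + 1) = b) ∨ (x m = b ∧ x (m + 1) = a)) := by
        intro m hm hmi hsp
        rcases lt_or_gt_of_ne hmi with hlt | hgt
        · exact himin m hlt ⟨hm, hsp⟩
        · exact hs2 ⟨m, ⟨hgt, hm⟩, hsp⟩
      have hw : Reach adj (L - 1) (x (i + 1)) (x i) := by
        refine ⟨l - 1, fun t => if i + 1 + t ≤ l then x (i + 1 + t) else x (i + 1 + t - l),
          by omega, ?_, ?_, ?_⟩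
        · have : i + 1 + 0 ≤ l := by omega
          simp [this]
        · by_cases hi0 : i = 0
          · have : i + 1 + (l - 1) ≤ l := by omega
            have h2 : i + 1 + (l - 1) = l := by omega
            beta_reduce
            rw [if_pos this, h2, hcl, hi0]
          · have : ¬ (i + 1 + (l - 1) ≤ l) := by omega
            have h2 : i + 1 + (l - 1) - l = i := by omega
            beta_reduce
            rw [if_neg this, h2]
        · intro t ht
          by_cases h1 : i + 1 + (t + 1) ≤ l
          · have h2 : i + 1 + t ≤ l := by omega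
            simp only [h1, h2, if_true]
            exact hadj' (i + 1 + t) (by omega) (hns _ (by omega) (by omega))
          · by_cases h2 : i + 1 + t ≤ l
            · have h3 : i + 1 + t = l := by omega
              have h4 : i + 1 + (t + 1) - l = 0 + 1 := by omega
              beta_reduce
              rw [if_pos h2, if_neg h1, h3, h4, hcl]
              exact hadj' 0 (by omega) (hns _ (by omega) (by omega))
            · have h4 : i + 1 + (t + 1) - l = (i + 1 + t - l) + 1 := by omega
              simp only [h1, h2, if_false, h4]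
              exact hadj' _ (by omega) (hns _ (by omega) (by omega))
      rcases hi.2 with ⟨h3, h4⟩ | ⟨h3, h4⟩
      · rw [h3, h4] at hw; exact hr' hw
      · rw [h3, h4] at hw; exact hr hw
  · refine h l x hl1 hlL ⟨?_, hnb, hcl⟩
    intro m hm
    rcases hadj m hm with h1 | h1
    · exact h1
    · exact absurd ⟨m, hm, h1⟩ hs

def IsEnd (adj : V → V → Prop) (U : Finset V) (j : ℕ) (u x z : V) : Prop :=
  ∃ w : ℕ → V, w 0 = x ∧ w j = z ∧ (∀ i, i ≤ j → w i ∈ U) ∧
    (∀ i, i < j → adj (w i) (w (i + 1))) ∧ (∀ i, i + 2 ≤ j → w i ≠ w (i + 2)) ∧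
    (1 ≤ j → w 1 ≠ u)

theorem IsEnd.cons {adj : V → V → Prop} {U : Finset V} {j : ℕ} {u x y z : V}
    (h : IsEnd adj U j x y z) (hx : x ∈ U) (hxy : adj x y) (hyu : y ≠ u) :
    IsEnd adj U (j + 1) u x z := by
  obtain ⟨w, h0, hj, hU, hadj, hnb, h1⟩ := h
  refine ⟨fun t => Nat.casesOn t x w, rfl, hj, ?_, ?_, ?_, ?_⟩
  · intro i hi
    cases i with
    | zero => exact hx
    | succ n => exact hU n (by omega)
  · intro i hi
    cases i with
    | zero => show adj x (w 0); rw [h0]; exact hxy
    | succ n => exact hadj n (by omega)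
  · intro i hi
    cases i with
    | zero => exact (h1 (by omega)).symm
    | succ n => exact hnb n (by omega)
  · intro _
    show w 0 ≠ u
    rw [h0]; exact hyu

theorem IsEnd.disjoint {adj : V → V → Prop} (hsymm : ∀ u v, adj u v → adj v u)
    {U : Finset V} {j r : ℕ} (hjr : j + 1 ≤ r) (hno : NoShortNB adj (2 * r)) {x y y' z : V}
    (hxy : adj x y) (hxy' : adj x y') (hyy : y ≠ y')
    (h : IsEnd adj U j x y z) (h' : IsEnd adj U j x y' z) : False := by
  obtain ⟨w, h0, hj, -, hadj, hnb, h1⟩ := h
  obtain ⟨w', h0', hj', -, hadj', hnb', h1'⟩ := h'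
  set c : ℕ → V := fun t => if t ≤ j then w (j - t) else if t = j + 1 then x else w' (t - (j + 2))
    with hc
  have hc1 : ∀ t, t ≤ j → c t = w (j - t) := by
    intro t ht
    simp only [hc, if_pos ht]
  have hc2 : c (j + 1) = x := by
    have : ¬ (j + 1 ≤ j) := by omega
    simp only [hc, if_neg this, if_true]
  have hc3 : ∀ s, c (j + 2 + s) = w' s := by
    intro s
    have h1 : ¬ (j + 2 + s ≤ j) := by omega
    have h2 : ¬ (j + 2 + s = j + 1) := by omega
    have h3 : j + 2 + s - (j + 2) = s := by omega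
    simp only [hc, if_neg h1, if_neg h2, h3]
  refine hno (2 * j + 2) c (by omega) (by omega) ⟨?_, ?_, ?_⟩
  · intro t ht
    rcases lt_trichotomy t j with hlt | heq | hgt
    · rw [hc1 t (by omega), hc1 (t + 1) (by omega)]
      have h2 : j - t = (j - (t + 1)) + 1 := by omega
      rw [h2]
      exact hsymm _ _ (hadj _ (by omega))
    · subst heq
      rw [hc1 t le_rfl, hc2, Nat.sub_self, h0]
      exact hsymm _ _ hxy
    · rcases Nat.lt_or_ge (j + 1) t with hgt2 | hle2
      · obtain ⟨s, rfl⟩ : ∃ s, t = j + 2 + s := ⟨t - (j + 2), by omega⟩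
        rw [hc3 s, show j + 2 + s + 1 = j + 2 + (s + 1) by omega, hc3 (s + 1)]
        exact hadj' s (by omega)
      · have : t = j + 1 := by omega
        subst this
        rw [hc2, show j + 1 + 1 = j + 2 + 0 by omega, hc3 0, h0']
        exact hxy'
  · intro t ht
    rcases Nat.lt_or_ge (t + 1) j with hlt | hge
    · rw [hc1 t (by omega), hc1 (t + 2) (by omega)]
      have h2 : j - t = (j - (t + 2)) + 2 := by omega
      rw [h2]
      exact (hnb _ (by omega)).symm
    · rcases Nat.lt_or_ge (j + 1) t with hgt2 | hle2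
      · obtain ⟨s, rfl⟩ : ∃ s, t = j + 2 + s := ⟨t - (j + 2), by omega⟩
        rw [hc3 s, show j + 2 + s + 2 = j + 2 + (s + 2) by omega, hc3 (s + 2)]
        exact hnb' s (by omega)
      · have h3 : t + 1 = j ∨ t = j ∨ t = j + 1 := by omega
        rcases h3 with h3 | h3 | h3
        · rw [hc1 t (by omega), show t + 2 = j + 1 by omega, hc2, show j - t = 1 by omega]
          exact h1 (by omega)
        · subst h3
          rw [hc1 t le_rfl, show t + 2 = t + 2 + 0 by omega, hc3 0, Nat.sub_self, h0, h0']
          exact hyy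
        · subst h3
          rw [hc2, show j + 1 + 2 = j + 2 + 1 by omega, hc3 1]
          exact (h1' (by omega)).symm
  · rw [show 2 * j + 2 = j + 2 + j by omega, hc3 j, hc1 0 (by omega), Nat.sub_zero, hj, hj']

theorem two_pow_le_card_isEnd [DecidableEq V] {adj : V → V → Prop}
    (hsymm : ∀ u v, adj u v → adj v u) {U : Finset V} {r : ℕ} (hno : NoShortNB adj (2 * r))
    (hdeg : ∀ u ∈ U, ∀ s : Finset V, (∀ y, y ∈ s ↔ y ∈ U ∧ adj u y) → 3 ≤ s.card) :
    ∀ j, j ≤ r → ∀ u x, x ∈ U → ∀ s : Finset V, (∀ z, z ∈ s ↔ z ∈ U ∧ IsEnd adj U j u x z) →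
      2 ^ j ≤ s.card := by
  classical
  intro j
  induction j with
  | zero =>
    intro _ u x hx s hs
    have : x ∈ s := by
      rw [hs]
      refine ⟨hx, fun _ => x, rfl, rfl, fun _ _ => hx, ?_, ?_, ?_⟩
      · intro i hi; omega
      · intro i hi; omega
      · intro hi; omega
    simpa using Finset.card_pos.mpr ⟨x, this⟩
  | succ j ih =>
    intro hj u x hx s hs
    have h3 := hdeg x hx (U.filter (fun y => adj x y)) (by intro y; simp)
    have h2 : 1 < ((U.filter (fun y => adj x y)).erase u).card := by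
      have := Finset.pred_card_le_card_erase (s := U.filter (fun y => adj x y)) (a := u)
      omega
    obtain ⟨y, hy, y', hy', hyy⟩ := Finset.one_lt_card.mp h2
    simp only [Finset.mem_erase, Finset.mem_filter] at hy hy'
    have hA := ih (by omega) x y hy.2.1 (U.filter (fun z => IsEnd adj U j x y z))
      (by intro z; simp)
    have hB := ih (by omega) x y' hy'.2.1 (U.filter (fun z => IsEnd adj U j x y' z))
      (by intro z; simp)
    have hdisj : Disjoint (U.filter (fun z => IsEnd adj U j x y z))
        (U.filter (fun z => IsEnd adj U j x y' z)) := by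
      rw [Finset.disjoint_left]
      intro z hz hz'
      simp only [Finset.mem_filter] at hz hz'
      exact IsEnd.disjoint hsymm hj hno hy.2.2 hy'.2.2 hyy hz.2 hz'.2
    have hsub : (U.filter (fun z => IsEnd adj U j x y z)) ∪
        (U.filter (fun z => IsEnd adj U j x y' z)) ⊆ s := by
      intro z hz
      rw [hs]
      simp only [Finset.mem_union, Finset.mem_filter] at hz
      rcases hz with hz | hz
      · exact ⟨hz.1, hz.2.cons hx hy.2.2 hy.1⟩
      · exact ⟨hz.1, hz.2.cons hx hy'.2.2 hy'.1⟩
    have := Finset.card_le_card hsub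
    rw [Finset.card_union_of_disjoint hdisj] at this
    rw [pow_succ]
    omega

theorem NoShortNB.mono {adj adj' : V → V → Prop} (himp : ∀ u v, adj' u v → adj u v) {L : ℕ}
    (h : NoShortNB adj L) : NoShortNB adj' L := by
  intro l x h1 h2 hx
  exact h l x h1 h2 ⟨fun i hi => himp _ _ (hx.1 i hi), hx.2.1, hx.2.2⟩

theorem Reach.mono {adj adj' : V → V → Prop} (himp : ∀ u v, adj u v → adj' u v) {j : ℕ} {a b : V}
    (h : Reach adj j a b) : Reach adj' j a b := by
  obtain ⟨l, x, hl, h0, h1, hs⟩ := h
  exact ⟨l, x, hl, h0, h1, fun i hi => himp _ _ (hs i hi)⟩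

def adjF (F : Finset (V × V)) (a b : V) : Prop := (a, b) ∈ F ∨ (b, a) ∈ F

def adjLe (F : Finset (V × V)) (ρ : V × V → ℝ) (θ : ℝ) (a b : V) : Prop :=
  ((a, b) ∈ F ∧ ρ (a, b) ≤ θ) ∨ ((b, a) ∈ F ∧ ρ (b, a) ≤ θ)

theorem adjF_symm (F : Finset (V × V)) : ∀ u v, adjF F u v → adjF F v u := by
  intro u v h
  exact h.symm

theorem exists_low_degree [DecidableEq V] {adj : V → V → Prop} [DecidableRel adj]
    (hsymm : ∀ u v, adj u v → adj v u) {U : Finset V} {r : ℕ} (hno : NoShortNB adj (2 * r))
    (hne : U.Nonempty) (hcard : U.card < 2 ^ r) :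
    ∃ u ∈ U, (U.filter (fun y => adj u y)).card ≤ 2 := by
  classical
  by_contra hcon
  push Not at hcon
  obtain ⟨x, hx⟩ := hne
  have hdeg : ∀ u ∈ U, ∀ s : Finset V, (∀ y, y ∈ s ↔ y ∈ U ∧ adj u y) → 3 ≤ s.card := by
    intro u hu s hs
    have : s = U.filter (fun y => adj u y) := by
      ext y; rw [hs]; simp
    rw [this]
    exact hcon u hu
  have := two_pow_le_card_isEnd hsymm hno hdeg r le_rfl x x hx
    (U.filter (fun z => IsEnd adj U r x x z)) (by intro z; simp)
  have h2 := Finset.card_le_card (Finset.filter_subset (fun z => IsEnd adj U r x x z) U)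
  omega

theorem card_edges_le [DecidableEq V] (F : Finset (V × V)) {r : ℕ}
    (hno : NoShortNB (adjF F) (2 * r)) :
    ∀ (k : ℕ) (U : Finset V), U.card = k → U.card < 2 ^ r →
      (F.filter (fun e => e.1 ∈ U ∧ e.2 ∈ U)).card ≤ 4 * U.card := by
  classical
  intro k
  induction k with
  | zero =>
    intro U hU _
    have : U = ∅ := Finset.card_eq_zero.mp hU
    subst this
    simp
  | succ k ih =>
    intro U hU hlt
    have hne : U.Nonempty := by
      rw [← Finset.card_pos]; omega
    obtain ⟨u, hu, hdeg⟩ := exists_low_degree (adjF_symm F) hno hne hlt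
    have hcard' : (U.erase u).card = k := by
      rw [Finset.card_erase_of_mem hu]; omega
    have ih' := ih (U.erase u) hcard' (by omega)
    set N := U.filter (fun y => adjF F u y) with hN
    have hsub : F.filter (fun e => e.1 ∈ U ∧ e.2 ∈ U) ⊆
        (F.filter (fun e => e.1 ∈ U.erase u ∧ e.2 ∈ U.erase u)) ∪
          (N.image (fun y => (u, y)) ∪ N.image (fun y => (y, u))) := by
      intro e he
      obtain ⟨a, b⟩ := e
      simp only [Finset.mem_filter] at he
      simp only [Finset.mem_union, Finset.mem_filter, Finset.mem_image, Finset.mem_erase,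
        Prod.mk.injEq]
      by_cases ha : a = u
      · right; left
        refine ⟨b, ?_, ha.symm, rfl⟩
        rw [hN, Finset.mem_filter]
        exact ⟨he.2.2, Or.inl (ha ▸ he.1)⟩
      · by_cases hb : b = u
        · right; right
          refine ⟨a, ?_, rfl, hb.symm⟩
          rw [hN, Finset.mem_filter]
          exact ⟨he.2.1, Or.inr (hb ▸ he.1)⟩
        · left
          exact ⟨he.1, ⟨ha, he.2.1⟩, ⟨hb, he.2.2⟩⟩
    have h1 := Finset.card_le_card hsub
    have h2 := Finset.card_union_le (F.filter (fun e => e.1 ∈ U.erase u ∧ e.2 ∈ U.erase u))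
      (N.image (fun y => (u, y)) ∪ N.image (fun y => (y, u)))
    have h3 := Finset.card_union_le (N.image (fun y => (u, y))) (N.image (fun y => (y, u)))
    have h4 := Finset.card_image_le (s := N) (f := fun y => (u, y))
    have h5 := Finset.card_image_le (s := N) (f := fun y => (y, u))
    omega

theorem exists_greedy [DecidableEq V] (ρ : V × V → ℝ) {L : ℕ} (hL : 2 ≤ L)
    (P : Finset (V × V)) :
    ∃ F : Finset (V × V), F ⊆ P ∧ NoShortNB (adjF F) L ∧
      ∀ e ∈ P, Reach (adjLe F ρ (ρ e)) (L - 1) e.1 e.2 := by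
  classical
  induction P using Finset.induction_on_max_value ρ with
  | empty =>
    refine ⟨∅, Finset.Subset.refl _, ?_, by simp⟩
    intro l x h1 _ hx
    have := hx.1 0 (by omega)
    simp [adjF] at this
  | insert e s hes hmax ih =>
    obtain ⟨F, hFs, hno, hreach⟩ := ih
    by_cases hr : Reach (adjF F) (L - 1) e.1 e.2
    · refine ⟨F, hFs.trans (Finset.subset_insert _ _), hno, ?_⟩
      intro e' he'
      rcases Finset.mem_insert.mp he' with rfl | he'
      · refine hr.mono ?_
        intro u v huv
        rcases huv with h | h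
        · exact Or.inl ⟨h, hmax _ (hFs h)⟩
        · exact Or.inr ⟨h, hmax _ (hFs h)⟩
      · exact hreach e' he'
    · refine ⟨insert e F, Finset.insert_subset_insert _ hFs, ?_, ?_⟩
      · refine (hno.add_edge (adjF_symm F) hr).mono ?_
        intro u v huv
        rcases huv with h | h
        · rcases Finset.mem_insert.mp h with h | h
          · right; left
            rw [← h]
            exact ⟨rfl, rfl⟩
          · left; exact Or.inl h
        · rcases Finset.mem_insert.mp h with h | h
          · right; right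
            rw [← h]
            exact ⟨rfl, rfl⟩
          · left; exact Or.inr h
      · intro e' he'
        rcases Finset.mem_insert.mp he' with rfl | he'
        · refine ⟨1, fun t => if t = 0 then e'.1 else e'.2, by omega, by simp, by simp, ?_⟩
          intro i hi
          have : i = 0 := by omega
          subst this
          left
          simp
        · refine (hreach e' he').mono ?_
          intro u v huv
          rcases huv with h | h
          · exact Or.inl ⟨Finset.mem_insert_of_mem h.1, h.2⟩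
          · exact Or.inr ⟨Finset.mem_insert_of_mem h.1, h.2⟩

theorem exists_sparse_spanner [Fintype V] [DecidableEq V] (ρ : V × V → ℝ) {r : ℕ} (hr : 1 ≤ r)
    (hV : Fintype.card V < 2 ^ r) :
    ∃ F : Finset (V × V), F.card ≤ 4 * Fintype.card V ∧
      ∀ e : V × V, Reach (adjLe F ρ (ρ e)) (2 * r - 1) e.1 e.2 := by
  obtain ⟨F, -, hno, hreach⟩ := exists_greedy ρ (L := 2 * r) (by omega) Finset.univ
  refine ⟨F, ?_, fun e => hreach e (Finset.mem_univ e)⟩
  have := card_edges_le F hno _ Finset.univ rfl (by simpa using hV)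
  simpa using this

theorem lipschitz_of_spanner {F : Finset (V × V)} {ρ : V × V → ℝ} {h : ℕ}
    (hreach : ∀ e : V × V, Reach (adjLe F ρ (ρ e)) h e.1 e.2) (hρ : ∀ e, 0 ≤ ρ e)
    (g : V → ℝ) {M : ℝ} (hM : 0 ≤ M) (hg : ∀ e ∈ F, |g e.1 - g e.2| ≤ M * ρ e) (e : V × V) :
    |g e.1 - g e.2| ≤ h * (M * ρ e) := by
  obtain ⟨l, x, hl, h0, h1, hs⟩ := hreach e
  have key : ∀ i, i ≤ l → |g (x 0) - g (x i)| ≤ i * (M * ρ e) := by
    intro i
    induction i with
    | zero => intro _; simp
    | succ i ih =>
      intro hi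
      have ih' := ih (by omega)
      have hstep : |g (x i) - g (x (i + 1))| ≤ M * ρ e := by
        rcases hs i (by omega) with hh | hh
        · exact (hg _ hh.1).trans (mul_le_mul_of_nonneg_left hh.2 hM)
        · rw [abs_sub_comm]
          exact (hg _ hh.1).trans (mul_le_mul_of_nonneg_left hh.2 hM)
      have htri : |g (x 0) - g (x (i + 1))| ≤ |g (x 0) - g (x i)| + |g (x i) - g (x (i + 1))| :=
        abs_sub_le _ _ _
      push_cast
      linarith
  have := key l le_rfl
  rw [h0, h1] at this
  refine this.trans ?_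
  have h2 : (l : ℝ) ≤ h := by exact_mod_cast hl
  exact mul_le_mul_of_nonneg_right h2 (mul_nonneg hM (hρ e))

end Vale.Agent.P249
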