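import Mathlib
import Vale.Agent.P249.Spanner
import Vale.Agent.P249.Sampling

namespace Vale.Agent.P249

open Finset

theorem exists_sensitivity (p : ℝ) (hp : 1 ≤ p) (n r : ℕ) (hr : 1 ≤ r) (hn : n < 2 ^ r)
    (m : ℕ) (x : Fin n → Fin m → ℝ) :
    ∃ s : Fin m → ℝ, (∀ k, 0 ≤ s k) ∧
      (∀ k (e : Fin n × Fin n), |x e.1 k - x e.2 k| ^ p ≤ s k * ∑ k', |x e.1 k' - x e.2 k'| ^ p) ∧
      ∑ k, s k ≤ ((2 * r - 1 : ℕ) : ℝ) ^ p * (4 * n) := by
  classical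
  have hp0 : 0 < p := by linarith
  have hpne : p ≠ 0 := hp0.ne'
  set a : Fin m → (Fin n × Fin n) → ℝ := fun k e => |x e.1 k - x e.2 k| ^ p with ha
  have ha0 : ∀ k e, 0 ≤ a k e := fun k e => Real.rpow_nonneg (abs_nonneg _) _
  set A : (Fin n × Fin n) → ℝ := fun e => ∑ k, a k e with hA
  have hA0 : ∀ e, 0 ≤ A e := fun e => Finset.sum_nonneg (fun k _ => ha0 k e)
  have haA : ∀ k e, a k e ≤ A e := fun k e =>
    Finset.single_le_sum (f := fun k => a k e) (fun k _ => ha0 k e) (Finset.mem_univ k)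
  set ρ : (Fin n × Fin n) → ℝ := fun e => (A e) ^ (1 / p) with hρ
  have hρ0 : ∀ e, 0 ≤ ρ e := fun e => Real.rpow_nonneg (hA0 e) _
  obtain ⟨F, hFcard, hreach⟩ := exists_sparse_spanner ρ hr (by simpa using hn)
  rw [Fintype.card_fin] at hFcard
  set h : ℕ := 2 * r - 1 with hh
  set G : Fin m → ℝ := fun k => ∑ e ∈ F, a k e / A e with hG
  have hG0 : ∀ k, 0 ≤ G k := fun k =>
    Finset.sum_nonneg (fun e _ => div_nonneg (ha0 k e) (hA0 e))
  have hF : ∀ k, ∀ e ∈ F, |x e.1 k - x e.2 k| ≤ (G k) ^ (1 / p) * ρ e := by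
    intro k e he
    have h1 : a k e ≤ G k * A e := by
      rcases (hA0 e).lt_or_eq with hpos | hzero
      · have h2 : a k e / A e ≤ G k :=
          Finset.single_le_sum (f := fun e => a k e / A e)
            (fun e _ => div_nonneg (ha0 k e) (hA0 e)) he
        rwa [div_le_iff₀ hpos] at h2
      · have := haA k e
        rw [← hzero] at this ⊢
        simpa using this
    have h3 : (a k e) ^ (1 / p) ≤ (G k * A e) ^ (1 / p) :=
      Real.rpow_le_rpow (ha0 k e) h1 (by positivity)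
    rw [Real.mul_rpow (hG0 k) (hA0 e)] at h3
    have h4 : (a k e) ^ (1 / p) = |x e.1 k - x e.2 k| := by
      rw [ha]
      simp only
      rw [← Real.rpow_mul (abs_nonneg _), mul_one_div_cancel hpne, Real.rpow_one]
    rw [h4] at h3
    exact h3
  refine ⟨fun k => (h : ℝ) ^ p * G k, fun k =>
    mul_nonneg (Real.rpow_nonneg (Nat.cast_nonneg _) _) (hG0 k), ?_, ?_⟩
  · intro k e
    have h1 := lipschitz_of_spanner hreach hρ0 (fun i => x i k)
      (Real.rpow_nonneg (hG0 k) (1 / p)) (hF k) e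
    have h2 : |x e.1 k - x e.2 k| ^ p ≤ ((h : ℝ) * ((G k) ^ (1 / p) * ρ e)) ^ p :=
      Real.rpow_le_rpow (abs_nonneg _) h1 hp0.le
    rw [Real.mul_rpow (Nat.cast_nonneg _) (mul_nonneg (Real.rpow_nonneg (hG0 k) _) (hρ0 e)),
      Real.mul_rpow (Real.rpow_nonneg (hG0 k) _) (hρ0 e),
      ← Real.rpow_mul (hG0 k), one_div_mul_cancel hpne, Real.rpow_one] at h2
    have h3 : (ρ e) ^ p = A e := by
      rw [hρ]
      simp only
      rw [← Real.rpow_mul (hA0 e), one_div_mul_cancel hpne, Real.rpow_one]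
    rw [h3] at h2
    calc |x e.1 k - x e.2 k| ^ p ≤ (h : ℝ) ^ p * (G k * A e) := h2
      _ = (h : ℝ) ^ p * G k * A e := by ring
  · have h1 : ∑ k, (h : ℝ) ^ p * G k = (h : ℝ) ^ p * ∑ e ∈ F, ∑ k, a k e / A e := by
      rw [← Finset.mul_sum, Finset.sum_comm]
    rw [h1]
    apply mul_le_mul_of_nonneg_left _ (Real.rpow_nonneg (Nat.cast_nonneg _) _)
    calc ∑ e ∈ F, ∑ k, a k e / A e ≤ ∑ _e ∈ F, (1 : ℝ) := by
          apply Finset.sum_le_sum
          intro e _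
          rw [← Finset.sum_div]
          exact div_self_le_one _
      _ = F.card := by simp
      _ ≤ 4 * n := by exact_mod_cast hFcard

theorem core (p : ℝ) (hp : 1 ≤ p) (ε : ℝ) (hε0 : 0 < ε) (hε1 : ε < 1) (n r T : ℕ) (hr : 1 ≤ r)
    (hn : n < 2 ^ r) (hT0 : 0 < T)
    (hT : 2 * ((n : ℝ) * n) *
      Real.exp (-(T * ε ^ 2 / (4 * (((2 * r - 1 : ℕ) : ℝ) ^ p * (4 * n))))) < 1)
    (m : ℕ) (x : Fin n → Fin m → ℝ) :
    ∃ d : ℕ, d ≤ T ∧ ∃ (κ : Fin d → Fin m) (c : Fin d → ℝ), (∀ t, 0 ≤ c t) ∧ ∀ i j,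
      (1 - ε) * ∑ k, |x i k - x j k| ^ p ≤ ∑ t, |c t * x i (κ t) - c t * x j (κ t)| ^ p ∧
      ∑ t, |c t * x i (κ t) - c t * x j (κ t)| ^ p ≤ (1 + ε) * ∑ k, |x i k - x j k| ^ p := by
  classical
  have hp0 : 0 < p := by linarith
  have hpne : p ≠ 0 := hp0.ne'
  obtain ⟨s, hs0, hsa, hSle⟩ := exists_sensitivity p hp n r hr hn m x
  have ha0 : ∀ (k : Fin m) (e : Fin n × Fin n), 0 ≤ |x e.1 k - x e.2 k| ^ p :=
    fun k e => Real.rpow_nonneg (abs_nonneg _) _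
  rcases (Finset.sum_nonneg (fun k _ => hs0 k) : 0 ≤ ∑ k, s k).lt_or_eq with hSpos | hSzero
  · have hT' : 2 * (Fintype.card (Fin n × Fin n) : ℝ) *
        Real.exp (-(T * ε ^ 2 / (4 * ∑ k, s k))) < 1 := by
      refine lt_of_le_of_lt ?_ hT
      rw [Fintype.card_prod, Fintype.card_fin]
      push_cast
      have h1 : (T : ℝ) * ε ^ 2 / (4 * (((2 * r - 1 : ℕ) : ℝ) ^ p * (4 * n))) ≤
          T * ε ^ 2 / (4 * ∑ k, s k) := by
        apply div_le_div_of_nonneg_left (by positivity) (by positivity)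
        linarith
      have h2 : Real.exp (-(T * ε ^ 2 / (4 * ∑ k, s k))) ≤
          Real.exp (-(T * ε ^ 2 / (4 * (((2 * r - 1 : ℕ) : ℝ) ^ p * (4 * n))))) :=
        Real.exp_le_exp.mpr (neg_le_neg h1)
      exact mul_le_mul_of_nonneg_left h2 (by positivity)
    obtain ⟨κ, hκpos, hκ⟩ := exists_sample (fun k (e : Fin n × Fin n) => |x e.1 k - x e.2 k| ^ p)
      ha0 s hs0 hsa hSpos ε hε0 hε1 T hT0 hT'
    have hc : ∀ t, 0 ≤ (∑ k, s k) / (T * s (κ t)) := by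
      intro t
      have := hκpos t
      positivity
    refine ⟨T, le_rfl, κ, fun t => ((∑ k, s k) / (T * s (κ t))) ^ (1 / p),
      fun t => Real.rpow_nonneg (hc t) _, ?_⟩
    intro i j
    have hterm : ∀ t, |((∑ k, s k) / (T * s (κ t))) ^ (1 / p) * x i (κ t) -
        ((∑ k, s k) / (T * s (κ t))) ^ (1 / p) * x j (κ t)| ^ p =
        ((∑ k, s k) / (T * s (κ t))) * |x i (κ t) - x j (κ t)| ^ p := by
      intro t
      rw [← mul_sub, abs_mul, abs_of_nonneg (Real.rpow_nonneg (hc t) _),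
        Real.mul_rpow (Real.rpow_nonneg (hc t) _) (abs_nonneg _), ← Real.rpow_mul (hc t),
        one_div_mul_cancel hpne, Real.rpow_one]
    rw [Finset.sum_congr rfl (fun t _ => hterm t)]
    exact hκ (i, j)
  · refine ⟨0, Nat.zero_le _, Fin.elim0, Fin.elim0, fun t => t.elim0, ?_⟩
    intro i j
    have hz : ∀ k, s k = 0 := fun k =>
      (Finset.sum_eq_zero_iff_of_nonneg (fun k _ => hs0 k)).mp hSzero.symm k (Finset.mem_univ k)
    have hz2 : ∀ k, |x i k - x j k| ^ p = 0 := by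
      intro k
      have := hsa k (i, j)
      rw [hz k, zero_mul] at this
      exact le_antisymm this (ha0 k (i, j))
    simp [hz2]

theorem core_scaled (p : ℝ) (hp : 1 ≤ p) (ε : ℝ) (hε0 : 0 < ε) (hε1 : ε < 1) (n r T : ℕ)
    (hr : 1 ≤ r) (hn : n < 2 ^ r) (hT0 : 0 < T)
    (hT : 2 * ((n : ℝ) * n) *
      Real.exp (-(T * ε ^ 2 / (4 * (((2 * r - 1 : ℕ) : ℝ) ^ p * (4 * n))))) < 1)
    (m : ℕ) (x : Fin n → Fin m → ℝ) :
    ∃ d : ℕ, d ≤ T ∧ ∃ (κ : Fin d → Fin m) (c : Fin d → ℝ), ∀ i j,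
      ∑ k, |x i k - x j k| ^ p ≤ ∑ t, |c t * x i (κ t) - c t * x j (κ t)| ^ p ∧
      ∑ t, |c t * x i (κ t) - c t * x j (κ t)| ^ p ≤
        ((1 + ε) / (1 - ε)) * ∑ k, |x i k - x j k| ^ p := by
  have hp0 : 0 < p := by linarith
  have hpne : p ≠ 0 := hp0.ne'
  obtain ⟨d, hd, κ, c, hc, h⟩ := core p hp ε hε0 hε1 n r T hr hn hT0 hT m x
  have h1ε : 0 < 1 - ε := by linarith
  have hb : 0 ≤ (1 - ε)⁻¹ := by positivity
  refine ⟨d, hd, κ, fun t => ((1 - ε)⁻¹) ^ (1 / p) * c t, ?_⟩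
  intro i j
  have hterm : ∀ t, |((1 - ε)⁻¹) ^ (1 / p) * c t * x i (κ t) -
      ((1 - ε)⁻¹) ^ (1 / p) * c t * x j (κ t)| ^ p =
      (1 - ε)⁻¹ * |c t * x i (κ t) - c t * x j (κ t)| ^ p := by
    intro t
    rw [mul_assoc, mul_assoc, ← mul_sub, abs_mul, abs_of_nonneg (Real.rpow_nonneg hb _),
      Real.mul_rpow (Real.rpow_nonneg hb _) (abs_nonneg _), ← Real.rpow_mul hb,
      one_div_mul_cancel hpne, Real.rpow_one]
  rw [Finset.sum_congr rfl (fun t _ => hterm t), ← Finset.mul_sum]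
  obtain ⟨h1, h2⟩ := h i j
  constructor
  · have := mul_le_mul_of_nonneg_left h1 hb
    rwa [← mul_assoc, inv_mul_cancel₀ h1ε.ne', one_mul] at this
  · have := mul_le_mul_of_nonneg_left h2 hb
    calc _ ≤ (1 - ε)⁻¹ * ((1 + ε) * ∑ k, |x i k - x j k| ^ p) := this
      _ = ((1 + ε) / (1 - ε)) * ∑ k, |x i k - x j k| ^ p := by
        rw [div_eq_mul_inv]; ring

end Vale.Agent.P249
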