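import Mathlib
import Vale.Agent.P249.Core

namespace Vale.Agent.P249

open Finset

theorem param_bounds (p : ℝ) (hp : 1 ≤ p) (ε : ℝ) (hε0 : 0 < ε) (n : ℕ) (hn : 2 ≤ n) :
    ∃ r T : ℕ, 1 ≤ r ∧ n < 2 ^ r ∧ 0 < T ∧
      2 * ((n : ℝ) * n) *
        Real.exp (-(T * ε ^ 2 / (4 * (((2 * r - 1 : ℕ) : ℝ) ^ p * (4 * n))))) < 1 ∧
      (T : ℝ) ≤ (48 * (3 / Real.log 2) ^ p / ε ^ 2 + (1 / Real.log 2) ^ (p + 1)) * n *
        (Real.log n) ^ (p + 1) := by
  have hp0 : 0 < p := by linarith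
  have hlog2 : 0 < Real.log 2 := Real.log_pos (by norm_num)
  have hn0 : (0 : ℝ) < n := by exact_mod_cast (by omega : 0 < n)
  have hn2 : (2 : ℝ) ≤ n := by exact_mod_cast hn
  have hlogn : Real.log 2 ≤ Real.log n := Real.log_le_log (by norm_num) hn2
  have hlogn0 : 0 < Real.log n := lt_of_lt_of_le hlog2 hlogn
  set l := Nat.log 2 n with hl
  have hl1 : (l : ℝ) ≤ Real.log n / Real.log 2 := by
    have h1 : 2 ^ l ≤ n := Nat.pow_log_le_self 2 (by omega)
    have h2 : ((2 : ℝ) ^ l) ≤ n := by exact_mod_cast h1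
    have h3 := Real.log_le_log (by positivity) h2
    rw [Real.log_pow] at h3
    rwa [le_div_iff₀ hlog2]
  have hcast : (((2 * (l + 1) - 1 : ℕ)) : ℝ) = 2 * l + 1 := by
    have : 2 * (l + 1) - 1 = 2 * l + 1 := by omega
    rw [this]; push_cast; ring
  have hh : (((2 * (l + 1) - 1 : ℕ)) : ℝ) ≤ 3 / Real.log 2 * Real.log n := by
    rw [hcast]
    have h1 : (1 : ℝ) ≤ Real.log n / Real.log 2 := by rwa [one_le_div hlog2]
    have h2 : 3 / Real.log 2 * Real.log n = 3 * (Real.log n / Real.log 2) := by ring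
    rw [h2]; linarith
  have hh1 : (1 : ℝ) ≤ (((2 * (l + 1) - 1 : ℕ)) : ℝ) := by
    rw [hcast]
    have : (0 : ℝ) ≤ l := Nat.cast_nonneg _
    linarith
  set H : ℝ := (((2 * (l + 1) - 1 : ℕ)) : ℝ) ^ p with hH
  have hHpos : 0 < H := Real.rpow_pos_of_pos (by linarith) _
  have hHle : H ≤ (3 / Real.log 2) ^ p * (Real.log n) ^ p := by
    rw [← Real.mul_rpow (by positivity) hlogn0.le]
    exact Real.rpow_le_rpow (by linarith) hh hp0.le
  set S : ℝ := H * (4 * n) with hS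
  have hSpos : 0 < S := by positivity
  set T : ℕ := ⌊12 * S * Real.log n / ε ^ 2⌋₊ + 1 with hT
  have hTgt : 12 * S * Real.log n / ε ^ 2 < T := by
    rw [hT]; push_cast
    exact Nat.lt_floor_add_one _
  have hTle : (T : ℝ) ≤ 12 * S * Real.log n / ε ^ 2 + 1 := by
    rw [hT]; push_cast
    have := Nat.floor_le (a := 12 * S * Real.log n / ε ^ 2) (by positivity)
    linarith
  refine ⟨l + 1, T, by omega, Nat.lt_pow_succ_log_self (by norm_num) n, by omega, ?_, ?_⟩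
  · have h1 : 3 * Real.log n < T * ε ^ 2 / (4 * S) := by
      rw [lt_div_iff₀ (by positivity)]
      rw [div_lt_iff₀ (by positivity)] at hTgt
      linarith
    have h2 : Real.exp (-(T * ε ^ 2 / (4 * S))) < Real.exp (-(3 * Real.log n)) :=
      Real.exp_lt_exp.mpr (neg_lt_neg h1)
    have h3 : Real.exp (-(3 * Real.log n)) = 1 / (n : ℝ) ^ 3 := by
      rw [Real.exp_neg, show (3 : ℝ) * Real.log n = ((3 : ℕ) : ℝ) * Real.log n by norm_num,
        Real.exp_nat_mul, Real.exp_log hn0, one_div]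
    rw [h3] at h2
    calc 2 * ((n : ℝ) * n) * Real.exp (-(T * ε ^ 2 / (4 * S)))
        < 2 * ((n : ℝ) * n) * (1 / (n : ℝ) ^ 3) := by
          apply mul_lt_mul_of_pos_left h2 (by positivity)
      _ = 2 / n := by field_simp
      _ ≤ 1 := by rw [div_le_one hn0]; exact hn2
  · have h1 : 12 * S * Real.log n / ε ^ 2 ≤
        48 * (3 / Real.log 2) ^ p / ε ^ 2 * n * (Real.log n) ^ (p + 1) := by
      rw [Real.rpow_add_one hlogn0.ne', hS]
      have h2 : 12 * (H * (4 * n)) * Real.log n / ε ^ 2 =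
          H * (48 * n * Real.log n / ε ^ 2) := by ring
      have h3 : 48 * (3 / Real.log 2) ^ p / ε ^ 2 * n * ((Real.log n) ^ p * Real.log n) =
          ((3 / Real.log 2) ^ p * (Real.log n) ^ p) * (48 * n * Real.log n / ε ^ 2) := by ring
      rw [h2, h3]
      exact mul_le_mul_of_nonneg_right hHle (by positivity)
    have h4 : (1 : ℝ) ≤ (1 / Real.log 2) ^ (p + 1) * n * (Real.log n) ^ (p + 1) := by
      have h5 : (1 / Real.log 2) ^ (p + 1) * n * (Real.log n) ^ (p + 1) =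
          n * (1 / Real.log 2 * Real.log n) ^ (p + 1) := by
        rw [Real.mul_rpow (by positivity) hlogn0.le]; ring
      rw [h5]
      have h6 : (1 : ℝ) ≤ 1 / Real.log 2 * Real.log n := by
        rw [one_div, inv_mul_eq_div, one_le_div hlog2]; exact hlogn
      have h7 : (1 : ℝ) ≤ (1 / Real.log 2 * Real.log n) ^ (p + 1) :=
        Real.one_le_rpow h6 (by linarith)
      nlinarith
    calc (T : ℝ) ≤ 12 * S * Real.log n / ε ^ 2 + 1 := hTle
      _ ≤ 48 * (3 / Real.log 2) ^ p / ε ^ 2 * n * (Real.log n) ^ (p + 1) +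
          (1 / Real.log 2) ^ (p + 1) * n * (Real.log n) ^ (p + 1) := add_le_add h1 h4
      _ = _ := by ring

theorem main_pow (p : ℝ) (hp : 1 ≤ p) (D : ℝ) (hD : 1 < D) :
    ∃ C : ℝ, ∀ n : ℕ, 2 ≤ n → ∀ (m : ℕ) (x : Fin n → Fin m → ℝ),
      ∃ (d : ℕ) (κ : Fin d → Fin m) (c : Fin d → ℝ),
        (d : ℝ) ≤ C * n * (Real.log n) ^ (p + 1) ∧
        ∀ i j, ∑ k, |x i k - x j k| ^ p ≤ ∑ t, |c t * x i (κ t) - c t * x j (κ t)| ^ p ∧
          ∑ t, |c t * x i (κ t) - c t * x j (κ t)| ^ p ≤ D ^ p * ∑ k, |x i k - x j k| ^ p := by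
  have hp0 : 0 < p := by linarith
  have hDp : 1 < D ^ p := Real.one_lt_rpow hD hp0
  set ε : ℝ := (D ^ p - 1) / (D ^ p + 1) with hε
  have hε0 : 0 < ε := by
    apply div_pos <;> linarith
  have hε1 : ε < 1 := by
    rw [hε, div_lt_one (by linarith)]; linarith
  have hratio : (1 + ε) / (1 - ε) = D ^ p := by
    have h1 : D ^ p + 1 ≠ 0 := by linarith
    rw [hε]
    field_simp
    ring
  refine ⟨48 * (3 / Real.log 2) ^ p / ε ^ 2 + (1 / Real.log 2) ^ (p + 1), ?_⟩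
  intro n hn m x
  obtain ⟨r, T, hr, hnr, hT0, hT, hTle⟩ := param_bounds p hp ε hε0 n hn
  obtain ⟨d, hd, κ, c, h⟩ := core_scaled p hp ε hε0 hε1 n r T hr hnr hT0 hT m x
  refine ⟨d, κ, c, ?_, ?_⟩
  · have : (d : ℝ) ≤ T := by exact_mod_cast hd
    exact this.trans hTle
  · intro i j
    have := h i j
    rw [hratio] at this
    exact this

end Vale.Agent.P249
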